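import Vale.Agent.P216.AS.Htpy
import Vale.Agent.P216.Spine.Contract

/-! Block REG: over an interval without critical values the restriction maps are bijective. -/

open Set Topology

namespace Vale.Agent.P216

namespace REG

/-- A relation which holds locally along a segment holds between its end points. -/
theorem chain {R : ℝ → ℝ → Prop} {s t : ℝ} (hst : s ≤ t)
    (trans : ∀ a b c, a ≤ b → b ≤ c → R a b → R b c → R a c)
    (loc : ∀ m ∈ Icc s t, ∃ ε > 0, ∀ b ∈ Icc s t, ∀ c ∈ Icc s t, m - ε ≤ b → b ≤ c → c ≤ m + ε →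
      R b c) : R s t := by
  set A : Set ℝ := {a | a ∈ Icc s t ∧ R s a} with hA
  have hs : s ∈ A := by
    obtain ⟨ε, hε, h⟩ := loc s ⟨le_rfl, hst⟩
    exact ⟨⟨le_rfl, hst⟩, h s ⟨le_rfl, hst⟩ s ⟨le_rfl, hst⟩ (by linarith) le_rfl (by linarith)⟩
  have hbdd : BddAbove A := ⟨t, fun a ha => ha.1.2⟩
  have hm1 : s ≤ sSup A := le_csSup hbdd hs
  have hm2 : sSup A ≤ t := csSup_le ⟨s, hs⟩ fun a ha => ha.1.2
  obtain ⟨ε, hε, h⟩ := loc _ ⟨hm1, hm2⟩
  obtain ⟨a, ha, hlt⟩ := exists_lt_of_lt_csSup ⟨s, hs⟩ (show sSup A - ε < sSup A by linarith)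
  have ham : a ≤ sSup A := le_csSup hbdd ha
  set b := min (sSup A + ε) t with hb
  have hab : a ≤ b := le_min (by linarith) ha.1.2
  have hbI : b ∈ Icc s t := ⟨ha.1.1.trans hab, min_le_right _ _⟩
  have h1 : R a b := h a ha.1 b hbI hlt.le hab (min_le_left _ _)
  have h2 : b ∈ A := ⟨hbI, trans s a b ha.1.1 hab ha.2 h1⟩
  have h3 : b ≤ sSup A := le_csSup hbdd h2
  have h4 : b = t := by
    rcases min_choice (sSup A + ε) t with h5 | h5
    · rw [← hb] at h5; linarith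
    · rw [hb, h5]
  rw [h4] at h2
  exact h2.2

end REG

namespace GSys

variable {Λ : Type} [PseudoMetricSpace Λ] (S : GSys Λ)

/-- Near a non critical value the time one map of the descent pushes down. -/
theorem exists_push {p : ℕ} (hp : p.Prime) (hp2 : 2 < p) {s t : ℝ} (hs : 0 < s)
    (hcrit : ∀ a ∈ Icc s t, a ∉ AS.Crit S.ℓ) :
    ∃ D : ℝ → Λ → Λ,
      (∀ b ≤ t, AS.IsHtpy (fun _ : Unit => S.τ) (fun _ : Unit => S.τ) (S.X b) (S.X b) D) ∧
      (∀ u ∈ Icc (0 : ℝ) 1, ∀ x ∈ S.X t, D u (S.rot p x) = S.rot p (D u x)) ∧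
      (∀ x ∈ S.X t, D 0 x = x) ∧ (∀ x ∈ S.X t, D 1 (S.θ x) = S.θ (D 1 x)) ∧
      ∀ m ∈ Icc s t, ∃ ε > 0, ∀ b ∈ Icc s t, ∀ c ∈ Icc s t, m - ε ≤ b → c ≤ m + ε →
        MapsTo (D 1) (S.X c) (S.X b) := by
  have hT : 0 < max t 0 + 1 := by positivity
  have htT : t ≤ max t 0 + 1 := by linarith [le_max_left t 0]
  obtain ⟨D, hc, h0, hm, hτ, hr, hθ, -, hpass⟩ := S.descent p hp hp2 _ hT
  have hsub : ∀ b ≤ t, S.X b ⊆ S.X (max t 0 + 1) := fun b hb => S.mono _ _ (hb.trans htT)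
  refine ⟨D, fun b hb => ?_, fun u hu x hx => hr u hu x (hsub t le_rfl hx),
    fun x hx => h0 x (hsub t le_rfl hx), fun x hx => hθ x (hsub t le_rfl hx), ?_⟩
  · refine AS.IsHtpy.of_continuousOn (S.compact b)
      (hc.mono (prod_mono le_rfl (hsub b hb))) (fun u hu => hm u hu b (hb.trans htT)) ?_
    intro u hu _ x hx
    exact hτ u hu x (hsub b hb hx)
  · intro m hm'
    have hm0 : 0 < m := hs.trans_le hm'.1
    obtain ⟨hK1, hK2⟩ := S.K_empty m hm0 (hcrit m hm')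
    obtain ⟨ε, hε, h⟩ := hpass m hm0 (by linarith [hm'.2, le_max_left t 0]) ∅ isOpen_empty
      (by rw [hK1, hK2, union_empty])
    exact ⟨ε, hε, fun b _ c _ hb hc x hx =>
      S.mono _ _ hb (h x (S.mono _ _ hc hx) (notMem_empty x))⟩

variable {k : Type} [Field k]

/-- If the time one map of a homotopy pushes `X c` into `X b`, then the restriction is
bijective. -/
theorem res_bijective_of_push {D : ℝ → Λ → Λ} {b c : ℝ} (hbc : S.X b ⊆ S.X c)
    (hb : AS.IsHtpy (fun _ : Unit => S.τ) (fun _ : Unit => S.τ) (S.X b) (S.X b) D)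
    (hc : AS.IsHtpy (fun _ : Unit => S.τ) (fun _ : Unit => S.τ) (S.X c) (S.X c) D)
    (h0 : ∀ x ∈ S.X c, D 0 x = x) (h1 : MapsTo (D 1) (S.X c) (S.X b)) (n : ℕ) :
    Function.Bijective (AS.res hbc n : S.V k c n →ₗ[k] S.V k b n) := by
  have hr : AS.IsMap (fun _ : Unit => S.τ) (fun _ : Unit => S.τ) (S.X c) (S.X b) (D 1) :=
    hc.one.mono le_rfl h1
  -- restriction followed by the pullback under `D 1`
  have e1 : ∀ x : S.V k c n, AS.pull (fun _ : Unit => (-1 : k)) hr n (AS.res hbc n x) = x := by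
    intro x
    have h2 : AS.pull (fun _ : Unit => (-1 : k)) hr n (AS.res hbc n x) =
        AS.pull (fun _ : Unit => (-1 : k)) hc.one n x := by
      obtain ⟨f, hf, rfl⟩ := AS.H.exists_mk x
      rfl
    rw [h2, AS.pull_homotopy hc n, AS.pull_eq_res le_rfl hc.zero h0, AS.res_refl]
  have e2 : ∀ x : S.V k b n, AS.res hbc n (AS.pull (fun _ : Unit => (-1 : k)) hr n x) = x := by
    intro x
    have h2 : AS.res hbc n (AS.pull (fun _ : Unit => (-1 : k)) hr n x) =
        AS.pull (fun _ : Unit => (-1 : k)) hb.one n x := by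
      obtain ⟨f, hf, rfl⟩ := AS.H.exists_mk x
      rfl
    rw [h2, AS.pull_homotopy hb n, AS.pull_eq_res le_rfl hb.zero fun x hx => h0 x (hbc hx),
      AS.res_refl]
  exact Function.bijective_iff_has_inverse.2 ⟨_, e1, e2⟩

/-- **REG**, on `H`: the restriction map over an interval without critical values is bijective. -/
theorem res_bijective {s t : ℝ} (hs : 0 < s) (hst : s ≤ t)
    (hcrit : ∀ a ∈ Icc s t, a ∉ AS.Crit S.ℓ) (h : S.X s ⊆ S.X t) (n : ℕ) :
    Function.Bijective (AS.res h n : S.V k t n →ₗ[k] S.V k s n) := by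
  obtain ⟨D, hD, -, h0, -, hloc⟩ := S.exists_push Nat.prime_three (by norm_num) hs hcrit
  refine REG.chain (R := fun a b => ∀ h : S.X a ⊆ S.X b,
    Function.Bijective (AS.res h n : S.V k b n →ₗ[k] S.V k a n)) hst ?_ ?_ h
  · intro a b c hab hbc h1 h2 h
    have h3 := (h1 (S.mono _ _ hab)).comp (h2 (S.mono _ _ hbc))
    have e : (AS.res h n : S.V k c n →ₗ[k] S.V k a n) =
        (AS.res (S.mono _ _ hab) n) ∘ₗ (AS.res (S.mono _ _ hbc) n) :=
      LinearMap.ext fun x => (AS.res_res (S.mono _ _ hbc) (S.mono _ _ hab) x).symm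
    rw [e, LinearMap.coe_comp]
    exact h3
  · intro m hm
    obtain ⟨ε, hε, h1⟩ := hloc m hm
    refine ⟨ε, hε, fun b hb c hc hmb hbc hcm h => ?_⟩
    exact S.res_bijective_of_push h (hD b hb.2) (hD c hc.2)
      (fun x hx => h0 x (S.mono _ _ hc.2 hx)) (h1 b hb c hc hmb hcm) n

end GSys

end Vale.Agent.P216
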