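import Vale.Agent.P216.Bor.Loc
import Vale.Agent.P216.AS.Taut
import Vale.Agent.P216.AS.Setup707
import Vale.Agent.P216.H609.Count
import Vale.Agent.P216.H985.LefPair

/-!
# Localisation at the fixed set, final form

* `UTors.trans`, `uTors_of_subsingleton` : algebra;
* `uTors_Zr` : every class of `F (Zr X Fix / Zr X X)` is killed by a power of `u`;
* `triv_Fix` : the action on `Cc X / Zr X Fix` is trivial in characteristic `p`;
* `pull_bijective` : a homeomorphism of compact sets induces an isomorphism;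
* `GSys.loc` : the count.
-/

open Set Topology
open Module (finrank)

namespace Vale.Agent.P216.Loc

open Vale.Agent.P216.AS Vale.Agent.P216.H609

section Algebra

variable {k : Type} [Field k] {C : Amb k} {G : GCx C}

theorem uTors_of_subsingleton (P : G.Pair) (h : ∀ n, Subsingleton (P.HH n)) :
    UTors G P.S P.T P.hS P.hT := by
  intro n c hc
  have h1 : Subsingleton (P.FF n) := P.subsingleton_F h n
  exact ⟨0, H.subsingleton_iff.1 h1 c hc⟩

theorem uTors_trans {S R T : Sub C} {hS : G.Stable S} {hR : G.Stable R} {hT : G.Stable T}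
    (hRS : R ≤ S) (hTR : T ≤ R) (h : UTors G S R hS hR) (h' : UTors G R T hR hT) :
    UTors G S T hS hT := by
  intro n c hc
  obtain ⟨h1, h2⟩ := mem_Zc.1 hc
  have h2R : G.D n c ∈ (G.TotS R hR).S (n + 1) := ⟨fun q hq => hTR q (h2.1 q hq), h2.2⟩
  obtain ⟨m, h3⟩ := h n c (mem_Zc.2 ⟨h1, h2R⟩)
  -- `c = D y + t`
  obtain ⟨t, ht, w, hw, htw⟩ := mem_Bc.1 h3
  have hDw : G.D (n + 2 * m) w = 0 := d_im hw
  have hDt : G.D (n + 2 * m) t = G.D n c := by
    rw [← Dadd G n m, ← htw, map_add, hDw, add_zero]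
  have ht' : t ∈ Zc (G.TotS R hR) (G.TotS T hT) (n + 2 * m) := by
    refine mem_Zc.2 ⟨ht, ?_⟩
    change G.D (n + 2 * m) t ∈ _
    rw [hDt]
    exact GCx.Pair.TS_mono (by omega) h2
  obtain ⟨m', h4⟩ := h' _ t ht'
  have h5 : (t : G.Tot.K (n + 2 * m + 2 * m')) ∈
      Bc (G.TotS S hS) (G.TotS T hT) (n + 2 * m + 2 * m') :=
    Bc_mono (S := G.TotS R hR) (S' := G.TotS S hS) (T := G.TotS T hT) (T' := G.TotS T hT)
      (fun _ _ hx => ⟨fun q hq => hRS q (hx.1 q hq), hx.2⟩) le_rfl _ h4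
  -- `w` in degree `n + 2 m + 2 m'`
  have h6 : (w : G.Tot.K (n + 2 * m + 2 * m')) ∈
      Bc (G.TotS S hS) (G.TotS T hT) (n + 2 * m + 2 * m') := by
    refine im_le_Bc _ _ _ ?_
    rcases hnm : n + 2 * m with _ | l
    · rw [hnm] at hw
      rw [mem_im_zero.1 hw]
      exact Submodule.zero_mem _
    · rw [hnm] at hw
      obtain ⟨y, hy, hyw⟩ := mem_im_succ.1 hw
      rw [show l + 1 + 2 * m' = (l + 2 * m') + 1 by ring]
      refine mem_im_succ.2 ⟨y, GCx.Pair.TS_mono (by omega) hy, ?_⟩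
      change G.D (l + 2 * m') y = w
      rw [Dadd]
      exact hyw
  have h7 := Submodule.add_mem _ h5 h6
  have h8 : (t + w : G.Tot.K (n + 2 * m + 2 * m')) = c := htw
  rw [h8] at h7
  refine ⟨m + m', ?_⟩
  rw [show n + 2 * (m + m') = n + 2 * m + 2 * m' by ring]
  exact h7

end Algebra

section Top

variable {E : Type} [MetricSpace E] {k : Type} [Field k] {X : Set E} {τ g : E → E} {p : ℕ}
  {χ : Unit → k}

omit [MetricSpace E] in
theorem inv_of {Y : Set E} (hτ : ∀ x, τ (τ x) = x) (hY : MapsTo τ Y Y) :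
    Inv (fun _ : Unit => τ) Y :=
  fun _ x => ⟨fun h => by simpa [hτ x] using hY h, fun h => hY h⟩

theorem tw_of (A : Act X τ g p) (h2 : (2 : k) ≠ 0) (hχ : ∀ i, χ i * χ i = 1) :
    Tw (fun _ : Unit => τ) χ X where
  two := h2
  uniq _ _ := rfl
  inv _ x hx := A.τ_τ x hx
  sq := hχ
  uc _ ε hε := by
    have h := A.cpt.uniformContinuousOn_of_continuous A.τ_cont
    rw [Metric.uniformContinuousOn_iff] at h
    obtain ⟨δ, hδ, h⟩ := h ε hε
    exact ⟨δ, hδ, fun x hx y hy hxy => h x hx y hy hxy⟩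

theorem mapsTo_τ_Fix (A : Act X τ g p) : MapsTo τ (Fix X g) (Fix X g) := fun x hx =>
  ⟨A.τ_maps hx.1, by rw [A.comm x hx.1, hx.2]⟩

theorem mapsTo_g_Fix (A : Act X τ g p) : MapsTo g (Fix X g) (Fix X g) := fun x hx =>
  ⟨A.g_maps hx.1, by rw [hx.2, hx.2]⟩

/-- **Localisation**. -/
theorem uTors_Zr (A : Act X τ g p) (h2 : (2 : k) ≠ 0) (hχ : ∀ i, χ i * χ i = 1)
    (hτ : ∀ x, τ (τ x) = x) {hg : ∀ x, g^[p] x = x}
    (hS : (asG k g p hg).Stable (Zr (fun _ : Unit => τ) χ X (Fix X g)))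
    (hT : (asG k g p hg).Stable (Zr (fun _ : Unit => τ) χ X X)) :
    UTors (asG k g p hg) (Zr (fun _ : Unit => τ) χ X (Fix X g)) (Zr (fun _ : Unit => τ) χ X X)
      hS hT := by
  have hFc : IsCompact (Fix X g) := isCompact_Fix A
  have hFX : Fix X g ⊆ X := fun _ h => h.1
  have hR : (asG k g p hg).Stable (Zn (fun _ : Unit => τ) χ X (Fix X g)) :=
    stable_Zn (k := k) (χ := χ) (hg := hg) A hFc hFX (mapsTo_g_Fix A)
  have hT' : (asG k g p hg).Stable (Zn (fun _ : Unit => τ) χ X X) :=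
    stable_Zn (k := k) (χ := χ) (hg := hg) A A.cpt Subset.rfl A.g_maps
  have h1 : UTors (asG k g p hg) (Zn (fun _ : Unit => τ) χ X (Fix X g))
      (Zr (fun _ : Unit => τ) χ X X) hR hT := by
    have h := uTor_Zn (k := k) (χ := χ) (hg := hg) A hR hT'
    intro n c hc
    obtain ⟨m, hm⟩ := h n c (by
      have e : (asG k g p hg).TotS (Zr (fun _ : Unit => τ) χ X X) hT =
        (asG k g p hg).TotS (Zn (fun _ : Unit => τ) χ X X) hT' := by
          congr 1
          exact Zr_self_eq_Zn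
      rwa [← e])
    refine ⟨m, ?_⟩
    have e : (asG k g p hg).TotS (Zr (fun _ : Unit => τ) χ X X) hT =
        (asG k g p hg).TotS (Zn (fun _ : Unit => τ) χ X X) hT' := by
          congr 1
          exact Zr_self_eq_Zn
    rwa [e]
  have h3 : UTors (asG k g p hg) (Zr (fun _ : Unit => τ) χ X (Fix X g))
      (Zn (fun _ : Unit => τ) χ X (Fix X g)) hS hR :=
    uTors_of_subsingleton (G := asG k g p hg) ⟨_, _, hS, hR, fun n => Zn_le_Zr hFX n⟩
      fun n => taut (tw_of A h2 hχ) (inv_of hτ A.τ_maps) hFc hFX (inv_of hτ (mapsTo_τ_Fix A)) n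
  exact uTors_trans (Zn_le_Zr hFX) (Zr_self_eq_Zn (k := k) (χ := χ) (X := X) ▸
    Zn_anti le_rfl hFX) h3 h1

/-- The action on `Cc X / Zr X Fix` is trivial, with norm zero in characteristic `p`. -/
theorem triv_Fix [CharP k p] (A : Act X τ g p) {hg : ∀ x, g^[p] x = x} :
    H609.Triv (asG k g p hg) (Cc (fun _ : Unit => τ) χ X) (Zr (fun _ : Unit => τ) χ X (Fix X g)) := by
  have hc : ∀ _ : Unit, ∀ x ∈ X, g (τ x) = τ (g x) := fun _ => A.comm
  have hit : ∀ (j n : ℕ) (x : Fin (n + 1) → E), Sm (Fix X g) 1 x → g^[j] ∘ x = x := by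
    intro j n x hx
    funext i
    exact Function.iterate_fixed (hx.1 i).2 j
  constructor
  · intro n f hf
    refine ⟨Eqv.sub hf (pbE_eqv A.g_maps hc hf), 1, one_pos, fun x hx => ?_⟩
    change f x - f (g ∘ x) = 0
    have h := hit 1 n x hx
    rw [Function.iterate_one] at h
    rw [h, sub_self]
  · intro n f hf
    have hst : (asG k g p hg).Stable (Cc (fun _ : Unit => τ) χ X) := stable_Cc A.g_maps hc
    refine ⟨hst.nm_mem n f hf, 1, one_pos, fun x hx => ?_⟩
    change (nm p (pbE k g n) f : (Fin (n + 1) → E) → k) x = 0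
    unfold nm
    rw [LinearMap.sum_apply, Finset.sum_apply, Finset.sum_congr rfl (g := fun _ => f x)]
    · rw [Finset.sum_const, Finset.card_range, nsmul_eq_mul, CharP.cast_eq_zero, zero_mul]
    · intro j _
      rw [pbE_pow]
      change f (g^[j] ∘ x) = f x
      rw [hit j n x hx]

end Top

section Homeo

variable {E E' : Type} [MetricSpace E] [MetricSpace E'] {k : Type} [Field k] {I : Type}
  {a : I → E → E} {a' : I → E' → E'} {χ : I → k} {X : Set E} {X' : Set E'} {f : E → E'}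

/-- The inverse of an injective continuous map of a compact set is uniformly continuous. -/
theorem uc_inv (hX : IsCompact X) (hf : ContinuousOn f X) (hinj : InjOn f X) :
    ∀ ε > 0, ∃ δ > 0, ∀ x ∈ X, ∀ y ∈ X, dist (f x) (f y) < δ → dist x y < ε := by
  intro ε hε
  have hK : IsCompact ((X ×ˢ X) ∩ {q : E × E | ε ≤ dist q.1 q.2}) :=
    (hX.prod hX).inter_right (isClosed_le continuous_const continuous_dist)
  rcases ((X ×ˢ X) ∩ {q : E × E | ε ≤ dist q.1 q.2}).eq_empty_or_nonempty with h0 | hne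
  · refine ⟨1, one_pos, fun x hx y hy _ => ?_⟩
    by_contra hcon
    have : (x, y) ∈ (X ×ˢ X) ∩ {q : E × E | ε ≤ dist q.1 q.2} := ⟨⟨hx, hy⟩, not_lt.1 hcon⟩
    rw [h0] at this
    exact this
  · have hcont : ContinuousOn (fun q : E × E => dist (f q.1) (f q.2))
        ((X ×ˢ X) ∩ {q : E × E | ε ≤ dist q.1 q.2}) := by
      refine cdist ?_ ?_
      · exact hf.comp continuousOn_fst fun q hq => hq.1.1
      · exact hf.comp continuousOn_snd fun q hq => hq.1.2
    obtain ⟨⟨x, y⟩, ⟨⟨hx, hy⟩, hxy⟩, hmin⟩ := hK.exists_isMinOn hne hcont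
    refine ⟨dist (f x) (f y), ?_, fun x' hx' y' hy' hlt => ?_⟩
    · refine dist_pos.2 fun h => ?_
      have h1 : x = y := hinj hx hy h
      have h2 : ε ≤ dist x y := hxy
      rw [h1, dist_self] at h2
      linarith
    · by_contra hcon
      have h3 := hmin (a := (x', y')) ⟨⟨hx', hy'⟩, not_lt.1 hcon⟩
      exact absurd hlt (not_lt.2 h3)

theorem subsingleton_Ha_empty (n : ℕ) : Subsingleton (Ha a χ (∅ : Set E) n) :=
  H.subsingleton_iff.2 fun _ hx => T_le_Bc _ _ _
    ⟨hx.1, 1, one_pos, fun _ hy => absurd (hy.1 0) (notMem_empty _)⟩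

/-- An equivariant homeomorphism of compact sets induces an isomorphism. -/
theorem pull_bijective (hX : IsCompact X) (hf : ContinuousOn f X) (hinj : InjOn f X)
    (him : f '' X = X') (ha : ∀ i, MapsTo (a i) X X) (h : IsMap a a' X X' f) (n : ℕ) :
    Function.Bijective (pull χ h n) := by
  classical
  rcases X.eq_empty_or_nonempty with h0 | ⟨x₀, hx₀⟩
  · subst h0
    rw [image_empty] at him
    subst him
    have h1 := subsingleton_Ha_empty (a := a) (χ := χ) n
    have h2 := subsingleton_Ha_empty (a := a') (χ := χ) n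
    exact ⟨fun x y _ => Subsingleton.elim x y, fun y => ⟨0, Subsingleton.elim _ _⟩⟩
  · have : Nonempty E := ⟨x₀⟩
    have hex : ∀ y ∈ X', ∃ x ∈ X, f x = y := fun y hy => by rwa [← him] at hy
    set u := Function.invFunOn f X with hu
    have hum : ∀ y ∈ X', u y ∈ X := fun y hy => Function.invFunOn_mem (hex y hy)
    have huf : ∀ y ∈ X', f (u y) = y := fun y hy => Function.invFunOn_eq (hex y hy)
    have hfu : ∀ x ∈ X, u (f x) = x := fun x hx =>
      hinj (hum _ (h.mapsX hx)) hx (huf _ (h.mapsX hx))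
    have hU : IsMap a' a X' X u :=
      { mapsX := hum
        eqv := fun i y hy => by
          have h1 : f (a i (u y)) = a' i y := by rw [h.eqv i _ (hum y hy), huf y hy]
          rw [← h1]
          exact hfu _ (ha i (hum y hy))
        uc := fun ε hε => by
          obtain ⟨δ, hδ, h1⟩ := uc_inv hX hf hinj ε hε
          refine ⟨δ, hδ, fun x hx y hy hxy => h1 _ (hum x hx) _ (hum y hy) ?_⟩
          rwa [huf x hx, huf y hy] }
    have e1 : ∀ x, pull χ hU n (pull χ h n x) = x := fun x => by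
      rw [← pull_comp h hU, pull_eq_res (Subset.refl X') (h.comp hU) huf, res_refl]
    have e2 : ∀ x, pull χ h n (pull χ hU n x) = x := fun x => by
      rw [← pull_comp hU h, pull_eq_res (Subset.refl X) (hU.comp h) hfu, res_refl]
    exact Function.bijective_iff_has_inverse.2 ⟨pull χ hU n, e1, e2⟩

end Homeo

end Vale.Agent.P216.Loc

namespace Vale.Agent.P216.GSys

open AS H609 Loc

variable {Λ : Type} [MetricSpace Λ] (S : GSys Λ)

theorem act {p : ℕ} (hp : p.Prime) (h2 : 2 < p) (s : ℝ) : Act (S.X s) S.τ (S.rot p) p where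
  cpt := S.compact s
  prime := hp
  odd := by omega
  τ_cont := S.cont_τ s
  g_cont := S.cont_rot p s
  τ_maps := S.τ_mem s
  g_maps := S.rot_mem p s
  τ_τ x _ := S.τ_τ x
  g_p x _ := S.rot_pow p hp.pos x
  comm x _ := (S.τ_rot p x).symm

/-- The fixed set of the rotation in `X s` is the image of `X (s / p)`. -/
theorem image_eq_Fix {p : ℕ} (hp : p.Prime) (h2 : 2 < p) {s : ℝ} (hs : 0 ≤ s) :
    S.ψ p '' S.X (s / p) = Fix (S.X s) (S.rot p) := by
  have hp0 : (0 : ℝ) < p := by exact_mod_cast hp.pos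
  have h := S.ψ_image p hp h2 (s / p) (div_nonneg hs hp0.le)
  rwa [mul_div_cancel₀ s hp0.ne'] at h

section

variable {k : Type} [Field k]

/-- The fixed set of the rotation in `X s` has the cohomology of `X (s / p)`. -/
theorem exists_iso {p : ℕ} (hp : p.Prime) (h2 : 2 < p) {s : ℝ} (hs : 0 ≤ s) (n : ℕ) :
    Nonempty (H (S.CS k s) (Zr (fun _ : Unit => S.τ) (fun _ : Unit => (-1 : k)) (S.X s)
      (Fix (S.X s) (S.rot p))) n ≃ₗ[k] S.V k (s / p) n) := by
  have hp0 : (0 : ℝ) < p := by exact_mod_cast hp.pos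
  have hs' : 0 ≤ s / p := div_nonneg hs hp0.le
  have h1 := H985.quot_bijective (a := fun _ : Unit => S.τ) (χ := fun _ : Unit => (-1 : k))
    (X := S.X s) (A := Fix (S.X s) (S.rot p)) (fun _ hx => hx.1)
    (fun _ x _ => inv_of S.τ_τ (mapsTo_τ_Fix (S.act hp h2 s)) () x) n
  have hc := S.ψ_cont p hp h2 (s / p) hs'
  have hM : IsMap (fun _ : Unit => S.τ) (fun _ : Unit => S.τ) (S.X (s / p))
      (Fix (S.X s) (S.rot p)) (S.ψ p) :=
    IsMap.of_continuousOn (S.compact _) hc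
      (fun x hx => by rw [← S.image_eq_Fix hp h2 hs]; exact mem_image_of_mem _ hx)
      fun _ x hx => S.ψ_τ p hp h2 (s / p) hs' x hx
  have h3 := pull_bijective (χ := fun _ : Unit => (-1 : k)) (S.compact _) hc
    (S.ψ_inj p hp h2 (s / p) hs') (S.image_eq_Fix hp h2 hs) (fun _ => S.τ_mem _) hM n
  exact ⟨(LinearEquiv.ofBijective _ h1).trans (LinearEquiv.ofBijective _ h3)⟩

end

/-- **LOC**: the count needed for the Smith inequality. -/
theorem loc {p : ℕ} [hp : Fact p.Prime] (h2 : 2 < p) (hp0 : 0 < p) {s : ℝ} (hs : 0 ≤ s)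
    (hfin : ∀ n, Module.Finite (ZMod p) (S.V (ZMod p) s n))
    (hfin' : ∀ n, Module.Finite (ZMod p) (S.V (ZMod p) (s / p) n))
    {J₀ : ℕ} (hvan : ∀ j ≥ J₀, finrank (ZMod p) (S.V (ZMod p) (s / p) j) = 0) (m J : ℕ) :
    ∃ n ≥ m, 2 * ∑ j ∈ Finset.range J, finrank (ZMod p) (S.V (ZMod p) (s / p) j) ≤
      finrank (ZMod p) ((S.P (ZMod p) p hp0 s).FF (n + 1)) +
        finrank (ZMod p) ((S.P (ZMod p) p hp0 s).FF n) := by
  have A := S.act hp.out h2 s
  have two : (2 : ZMod p) ≠ 0 := by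
    intro h
    have h' : ((2 : ℕ) : ZMod p) = 0 := by exact_mod_cast h
    rw [ZMod.natCast_eq_zero_iff] at h'
    exact absurd (Nat.le_of_dvd two_pos h') (by omega)
  have hg := S.good (ZMod p) p hp0 s
  have hFX : Fix (S.X s) (S.rot p) ⊆ S.X s := fun _ h => h.1
  have hA : (S.sym (ZMod p) p hp0).gcx.Stable (Zr (fun _ : Unit => S.τ)
      (fun _ : Unit => (-1 : ZMod p)) (S.X s) (Fix (S.X s) (S.rot p))) :=
    Sym.stable_Zr hg hFX (mapsTo_g_Fix A)
  have hT : (S.sym (ZMod p) p hp0).gcx.Stable (S.CT (ZMod p) s) :=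
    Sym.stable_Zr hg Subset.rfl (S.rot_mem p s)
  have ht : UTors (S.sym (ZMod p) p hp0).gcx (Zr (fun _ : Unit => S.τ)
      (fun _ : Unit => (-1 : ZMod p)) (S.X s) (Fix (S.X s) (S.rot p))) (S.CT (ZMod p) s) hA hT :=
    uTors_Zr (hg := S.rot_pow p hp0) A two (fun _ => by norm_num) S.τ_τ hA hT
  have htr : H609.Triv (S.sym (ZMod p) p hp0).gcx (S.CS (ZMod p) s) (Zr (fun _ : Unit => S.τ)
      (fun _ : Unit => (-1 : ZMod p)) (S.X s) (Fix (S.X s) (S.rot p))) :=
    triv_Fix (hg := S.rot_pow p hp0) A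
  have iso := fun j => (S.exists_iso (k := ZMod p) hp.out h2 hs j).some
  have hfA : ∀ j, FiniteDimensional (ZMod p) (H (S.CS (ZMod p) s) (Zr (fun _ : Unit => S.τ)
      (fun _ : Unit => (-1 : ZMod p)) (S.X s) (Fix (S.X s) (S.rot p))) j) := fun j =>
    have := hfin' j
    LinearEquiv.finiteDimensional (iso j).symm
  have hfF : ∀ n, FiniteDimensional (ZMod p) (H ((S.sym (ZMod p) p hp0).gcx.TotS
      (S.CS (ZMod p) s) (Sym.stable_Cc hg)) ((S.sym (ZMod p) p hp0).gcx.TotS
      (S.CT (ZMod p) s) hT) n) :=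
    (S.P (ZMod p) p hp0 s).finite_F hfin
  have hJ : ∀ j ≥ max J J₀, ∀ x ∈ Zc (S.CS (ZMod p) s) (Zr (fun _ : Unit => S.τ)
      (fun _ : Unit => (-1 : ZMod p)) (S.X s) (Fix (S.X s) (S.rot p))) j,
      x ∈ Bc (S.CS (ZMod p) s) (Zr (fun _ : Unit => S.τ)
      (fun _ : Unit => (-1 : ZMod p)) (S.X s) (Fix (S.X s) (S.rot p))) j := by
    intro j hj
    have h1 := hfin' j
    have h3 : Subsingleton (S.V (ZMod p) (s / p) j) :=
      Module.finrank_zero_iff.1 (hvan j ((le_max_right _ _).trans hj))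
    exact H.subsingleton_iff.1 (iso j).toEquiv.subsingleton
  obtain ⟨n, hn, hle⟩ := count (G := (S.sym (ZMod p) p hp0).gcx) (S := S.CS (ZMod p) s)
    (T := S.CT (ZMod p) s) (hS := Sym.stable_Cc hg) htr (Zr_anti le_rfl hFX) Zr_le_Cc ht hJ m
  refine ⟨n, hn, le_trans ?_ hle⟩
  refine Nat.mul_le_mul_left 2 ?_
  rw [Finset.sum_congr rfl fun j _ => (LinearEquiv.finrank_eq (iso j)).symm]
  exact Finset.sum_le_sum_of_subset (Finset.range_subset_range.2 (le_max_left _ _))

end Vale.Agent.P216.GSys
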