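import Vale.Agent.P216.AS.Defs

/-!
Localisation (block BOR2/LOC of P216), topological part: local form of the germ condition,
multiplication by indicator functions, invariant neighbourhoods of the fixed set, cover of the
rest by finitely many free-small sets.
-/

open Set Matrix Filter Topology

namespace Vale.Agent.P216.Loc

open Vale.Agent.P216.AS

set_option linter.unusedSectionVars false

theorem cdist {α β : Type*} [TopologicalSpace α] [PseudoMetricSpace β] {f g : α → β} {s : Set α}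
    (hf : ContinuousOn f s) (hg : ContinuousOn g s) :
    ContinuousOn (fun x => dist (f x) (g x)) s :=
  continuous_dist.comp_continuousOn (hf.prodMk hg)

section van

variable {E : Type} [PseudoMetricSpace E] {k : Type} [Field k]

/-- `f` vanishes on the tuples of `X` near `a`. -/
def VanAt (X : Set E) (a : E) {n : ℕ} (f : (Fin n → E) → k) : Prop :=
  ∃ r > 0, ∀ x : Fin n → E, (∀ i, x i ∈ X ∧ dist (x i) a < r) → f x = 0

theorem VanAt.add {X : Set E} {a : E} {n : ℕ} {f g : (Fin n → E) → k} (hf : VanAt X a f)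
    (hg : VanAt X a g) : VanAt X a (f + g) := by
  obtain ⟨r, hr, h⟩ := hf
  obtain ⟨s, hs, h'⟩ := hg
  refine ⟨min r s, lt_min hr hs, fun x hx => ?_⟩
  rw [Pi.add_apply, h x fun i => ⟨(hx i).1, (hx i).2.trans_le (min_le_left _ _)⟩,
    h' x fun i => ⟨(hx i).1, (hx i).2.trans_le (min_le_right _ _)⟩, add_zero]

theorem VanAt.neg {X : Set E} {a : E} {n : ℕ} {f : (Fin n → E) → k} (hf : VanAt X a f) :
    VanAt X a (-f) := by
  obtain ⟨r, hr, h⟩ := hf
  exact ⟨r, hr, fun x hx => by rw [Pi.neg_apply, h x hx, neg_zero]⟩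

theorem VanAt.sub {X : Set E} {a : E} {n : ℕ} {f g : (Fin n → E) → k} (hf : VanAt X a f)
    (hg : VanAt X a g) : VanAt X a (f - g) := by
  rw [sub_eq_add_neg]
  exact hf.add hg.neg

theorem VanAt.d {X : Set E} {a : E} {n : ℕ} {f : (Fin n → E) → k} (hf : VanAt X a f) :
    VanAt X a (P265.AS.d f) := by
  obtain ⟨r, hr, h⟩ := hf
  refine ⟨r, hr, fun x hx => P265.AS.d_eq_zero fun y hy => h y fun i => ?_⟩
  obtain ⟨j, hj⟩ := hy i
  rw [hj]
  exact hx j

/-- `VanN` is a local condition when `A` is compact. -/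
theorem vanN_iff {X A : Set E} (hA : IsCompact A) {n : ℕ} {f : (Fin (n + 1) → E) → k} :
    VanN X A f ↔ ∀ a ∈ A, VanAt X a f := by
  constructor
  · rintro ⟨ε, hε, h⟩ a ha
    refine ⟨ε / 2, by positivity, fun x hx => h x ⟨⟨fun i => (hx i).1, fun i j => ?_⟩,
      fun i => ⟨a, ha, by linarith [(hx i).2]⟩⟩⟩
    have := dist_triangle_right (x i) (x j) a
    linarith [(hx i).2, (hx j).2]
  · intro h
    choose! r hr hrf using h
    obtain ⟨t, htA, htc⟩ := hA.elim_nhds_subcover (fun a => Metric.ball a (r a / 3))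
      (fun a ha => Metric.ball_mem_nhds a (by linarith [hr a ha]))
    rcases t.eq_empty_or_nonempty with rfl | hne
    · refine ⟨1, one_pos, fun x hx => ?_⟩
      obtain ⟨y, hy, -⟩ := hx.2 0
      have := htc hy
      simp at this
    · obtain ⟨b, hb, hbmin⟩ := t.exists_min_image r hne
      refine ⟨r b / 3, by linarith [hr b (htA b hb)], fun x hx => ?_⟩
      obtain ⟨y, hy, hxy⟩ := hx.2 0
      obtain ⟨a, ha⟩ := mem_iUnion.1 (htc hy)
      obtain ⟨hat, hya⟩ := mem_iUnion.1 ha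
      rw [Metric.mem_ball] at hya
      apply hrf a (htA a hat)
      intro i
      refine ⟨hx.1.1 i, ?_⟩
      have h1 := hx.1.2 i 0
      have h2 := dist_triangle (x i) (x 0) a
      have h3 := dist_triangle (x 0) y a
      have h4 := hbmin a hat
      linarith

/-- Multiplication by the indicator function of `D` at the first vertex. -/
noncomputable def cut (k : Type) [Field k] (D : Set E) (n : ℕ) :
    ((Fin (n + 1) → E) → k) →ₗ[k] ((Fin (n + 1) → E) → k) := by
  classical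
  exact
  { toFun := fun f x => if x 0 ∈ D then f x else 0
    map_add' := fun f g => by
      funext x
      by_cases h : x 0 ∈ D <;> simp [h]
    map_smul' := fun c f => by
      funext x
      by_cases h : x 0 ∈ D <;> simp [h] }

theorem cut_of_mem {D : Set E} {n : ℕ} {f : (Fin (n + 1) → E) → k} {x : Fin (n + 1) → E}
    (h : x 0 ∈ D) : cut k D n f x = f x := if_pos h

theorem cut_of_notMem {D : Set E} {n : ℕ} {f : (Fin (n + 1) → E) → k} {x : Fin (n + 1) → E}
    (h : x 0 ∉ D) : cut k D n f x = 0 := if_neg h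

theorem cut_eqv {I : Type} {a : I → E → E} {χ : I → k} {X D : Set E} {n : ℕ}
    {f : (Fin (n + 1) → E) → k} (hf : Eqv a χ X f) (hD : ∀ i, ∀ x ∈ X, a i x ∈ D ↔ x ∈ D) :
    Eqv a χ X (cut k D n f) := by
  intro i x hx
  by_cases h : x 0 ∈ D
  · rw [cut_of_mem h, cut_of_mem (by simpa using (hD i _ (hx 0)).2 h), hf i x hx]
  · rw [cut_of_notMem h, cut_of_notMem (by simpa using (hD i _ (hx 0)).not.2 h), mul_zero]

theorem VanAt.cut {X D : Set E} {a : E} {n : ℕ} {f : (Fin (n + 1) → E) → k}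
    (hf : VanAt X a f) : VanAt X a (cut k D n f) := by
  obtain ⟨r, hr, h⟩ := hf
  refine ⟨r, hr, fun x hx => ?_⟩
  by_cases hD : x 0 ∈ D
  · rw [cut_of_mem hD, h x hx]
  · exact cut_of_notMem hD

theorem VanN.cut {X A D : Set E} {n : ℕ} {f : (Fin (n + 1) → E) → k}
    (hf : VanN X A f) : VanN X A (cut k D n f) := by
  obtain ⟨r, hr, h⟩ := hf
  refine ⟨r, hr, fun x hx => ?_⟩
  by_cases hD : x 0 ∈ D
  · rw [cut_of_mem hD, h x hx]
  · exact cut_of_notMem hD

/-- `D` is locally trivial at `a` in `X` -/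
def Triv (X D : Set E) (a : E) : Prop :=
  ∃ r > 0, (∀ y ∈ X, dist y a < r → y ∈ D) ∨ (∀ y ∈ X, dist y a < r → y ∉ D)

/-- the commutator of the coboundary and of the multiplication by an indicator function -/
theorem vanAt_comm {X D : Set E} {a : E} {n : ℕ} (f : (Fin (n + 1) → E) → k)
    (h : Triv X D a) :
    VanAt X a (P265.AS.d (cut k D n f) - cut k D (n + 1) (P265.AS.d f)) := by
  obtain ⟨r, hr, h | h⟩ := h
  · refine ⟨r, hr, fun x hx => ?_⟩
    have hx' : ∀ i, x i ∈ D := fun i => h _ (hx i).1 (hx i).2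
    rw [Pi.sub_apply, cut_of_mem (hx' 0), sub_eq_zero]
    apply P265.AS.d_congr
    intro y hy
    obtain ⟨j, hj⟩ := hy 0
    exact cut_of_mem (by rw [hj]; exact hx' j)
  · refine ⟨r, hr, fun x hx => ?_⟩
    have hx' : ∀ i, x i ∉ D := fun i => h _ (hx i).1 (hx i).2
    rw [Pi.sub_apply, cut_of_notMem (hx' 0), sub_zero]
    apply P265.AS.d_eq_zero
    intro y hy
    obtain ⟨j, hj⟩ := hy 0
    exact cut_of_notMem (by rw [hj]; exact hx' j)

end van

section top

variable {E : Type} [MetricSpace E]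

/-- The data: a compact set with an involution `τ` and a commuting map `g` of odd prime order. -/
structure Act (X : Set E) (τ g : E → E) (p : ℕ) : Prop where
  cpt : IsCompact X
  prime : p.Prime
  odd : p ≠ 2
  τ_cont : ContinuousOn τ X
  g_cont : ContinuousOn g X
  τ_maps : MapsTo τ X X
  g_maps : MapsTo g X X
  τ_τ : ∀ x ∈ X, τ (τ x) = x
  g_p : ∀ x ∈ X, g^[p] x = x
  comm : ∀ x ∈ X, g (τ x) = τ (g x)

namespace Act

variable {X : Set E} {τ g : E → E} {p : ℕ} (A : Act X τ g p)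

include A

theorem it_maps (j : ℕ) : MapsTo g^[j] X X := A.g_maps.iterate j

theorem it_cont (j : ℕ) : ContinuousOn g^[j] X := by
  induction j with
  | zero => exact continuousOn_id
  | succ j ih =>
    rw [Function.iterate_succ]
    exact ih.comp A.g_cont A.g_maps

theorem it_comm (j : ℕ) : ∀ x ∈ X, g^[j] (τ x) = τ (g^[j] x) := by
  induction j with
  | zero => intro x _; rfl
  | succ j ih =>
    intro x hx
    rw [Function.iterate_succ_apply', ih x hx, A.comm _ (A.it_maps j hx),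
      ← Function.iterate_succ_apply' g]

theorem it_mod (j : ℕ) {x : E} (hx : x ∈ X) : g^[j % p] x = g^[j] x := by
  conv_rhs => rw [← Nat.mod_add_div j p, Function.iterate_add_apply]
  congr 1
  induction (j / p) with
  | zero => rfl
  | succ m ih =>
    rw [Nat.mul_succ, Function.iterate_add_apply, A.g_p x hx, ← ih]

/-- a point fixed by a nontrivial power is fixed -/
theorem fix_of_it {j : ℕ} (hj : ¬ p ∣ j) {x : E} (hx : x ∈ X) (h : g^[j] x = x) : g x = x := by
  have hc : Nat.Coprime j p := (Nat.Prime.coprime_iff_not_dvd A.prime).2 hj |>.symm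
  have h1 : Function.IsPeriodicPt g j x := h
  have h2 : Function.IsPeriodicPt g p x := A.g_p x hx
  have h3 := h1.gcd h2
  rw [hc] at h3
  exact h3

/-- invariant distance to the fixed set -/
noncomputable def F (_ : Act X τ g p) (x : E) : ℝ :=
  ∑ i ∈ Finset.range p, (dist (g^[i] x) (g^[i + 1] x) + dist (g^[i] (τ x)) (g^[i + 1] (τ x)))

theorem F_cont : ContinuousOn A.F X := by
  unfold F
  refine continuousOn_finsetSum _ fun i _ => ?_
  exact (cdist (A.it_cont i) (A.it_cont (i + 1))).add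
    (cdist ((A.it_cont i).comp A.τ_cont A.τ_maps) ((A.it_cont (i + 1)).comp A.τ_cont A.τ_maps))

theorem F_nonneg (x : E) : 0 ≤ A.F x :=
  Finset.sum_nonneg fun _ _ => add_nonneg dist_nonneg dist_nonneg

theorem F_eq_zero {x : E} (hx : x ∈ X) : A.F x = 0 ↔ g x = x := by
  constructor
  · intro h
    unfold F at h
    rw [Finset.sum_eq_zero_iff_of_nonneg fun _ _ => add_nonneg dist_nonneg dist_nonneg] at h
    have h1 := h 0 (Finset.mem_range.2 A.prime.pos)
    have h2 : dist (g^[0] x) (g^[0 + 1] x) = 0 := by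
      have h3 : 0 ≤ dist (g^[0] x) (g^[0 + 1] x) := dist_nonneg
      have h4 : 0 ≤ dist (g^[0] (τ x)) (g^[0 + 1] (τ x)) := dist_nonneg
      linarith
    exact (dist_eq_zero.1 h2).symm
  · intro h
    have h1 : ∀ y, g y = y → ∀ j, g^[j] y = y := by
      intro y hy j
      exact Function.iterate_fixed hy j
    have h2 : g (τ x) = τ x := by rw [A.comm x hx, h]
    unfold F
    apply Finset.sum_eq_zero
    intro i _
    rw [h1 x h, h1 x h, h1 _ h2, h1 _ h2, dist_self, dist_self, add_zero]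

theorem sum_shift {φ : E → ℝ} {x : E} (hx : x ∈ X) :
    ∑ i ∈ Finset.range p, φ (g^[i] (g x)) = ∑ i ∈ Finset.range p, φ (g^[i] x) := by
  have h1 : ∀ i, φ (g^[i] (g x)) = φ (g^[i + 1] x) := fun i => by
    rw [Function.iterate_succ_apply]
  simp only [h1]
  have h2 := Finset.sum_range_succ' (fun i => φ (g^[i] x)) p
  have h3 := Finset.sum_range_succ (fun i => φ (g^[i] x)) p
  rw [A.g_p x hx] at h3
  simp only [Function.iterate_zero, id_eq] at h2
  linarith

theorem F_g {x : E} (hx : x ∈ X) : A.F (g x) = A.F x := by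
  have h := A.sum_shift (φ := fun y => dist y (g y)) hx
  have h' := A.sum_shift (φ := fun y => dist y (g y)) (A.τ_maps hx)
  unfold F
  rw [Finset.sum_add_distrib, Finset.sum_add_distrib]
  simp only [Function.iterate_succ_apply' g] at h h' ⊢
  rw [h, ← A.comm x hx, h']

theorem F_τ {x : E} (hx : x ∈ X) : A.F (τ x) = A.F x := by
  unfold F
  rw [Finset.sum_add_distrib, Finset.sum_add_distrib, A.τ_τ x hx, add_comm]

/-- the invariant neighbourhoods -/
theorem exists_nbhd {U : Set E} (hU : IsOpen U) (hAU : ∀ x ∈ X, g x = x → x ∈ U) :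
    ∃ c > 0, ∀ x ∈ X, A.F x ≤ c → x ∈ U := by
  have hK : IsCompact (X \ U) := A.cpt.diff hU
  rcases (X \ U).eq_empty_or_nonempty with he | hne
  · refine ⟨1, one_pos, fun x hx _ => ?_⟩
    by_contra hc
    have : x ∈ X \ U := ⟨hx, hc⟩
    rw [he] at this
    exact this
  · obtain ⟨y, hy, hmin⟩ := hK.exists_isMinOn hne (A.F_cont.mono sdiff_subset)
    have hpos : 0 < A.F y := by
      refine lt_of_le_of_ne (A.F_nonneg y) fun h => ?_
      exact hy.2 (hAU y hy.1 ((A.F_eq_zero hy.1).1 h.symm))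
    refine ⟨A.F y / 2, by positivity, fun x hx hc => ?_⟩
    by_contra hxU
    have h1 : A.F y ≤ A.F x := hmin (⟨hx, hxU⟩ : x ∈ X \ U)
    linarith

/-- distance to the pair `{x, τ x}` -/
noncomputable def psi (_ : Act X τ g p) (x y : E) : ℝ := min (dist y x) (dist (τ y) x)

theorem psi_cont (x : E) : ContinuousOn (A.psi x) X := by
  unfold psi
  exact (cdist continuousOn_id continuousOn_const).inf (cdist A.τ_cont continuousOn_const)

theorem psi_nonneg (x y : E) : 0 ≤ A.psi x y := le_min dist_nonneg dist_nonneg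

theorem psi_self (x : E) : A.psi x x = 0 := by
  unfold psi
  rw [dist_self]
  exact min_eq_left dist_nonneg

theorem psi_τ (x : E) {y : E} (hy : y ∈ X) : A.psi x (τ y) = A.psi x y := by
  unfold psi
  rw [A.τ_τ y hy, min_comm]

theorem psi_zero {x y : E} (h : A.psi x y = 0) : y = x ∨ τ y = x := by
  unfold psi at h
  rcases min_choice (dist y x) (dist (τ y) x) with h1 | h1
  · rw [h1] at h
    exact Or.inl (dist_eq_zero.1 h)
  · rw [h1] at h
    exact Or.inr (dist_eq_zero.1 h)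

/-- the translates of small neighbourhoods of a free orbit are separated -/
theorem exists_sep {x : E} (hx : x ∈ X) (hgx : g x ≠ x) :
    ∃ r > 0, ∀ j, 0 < j → j < p → ∀ y ∈ X, 6 * r < A.psi x y + A.psi x (g^[j] y) := by
  have hne : X.Nonempty := ⟨x, hx⟩
  have hj : ∀ j, 0 < j → j < p → ∃ r > 0, ∀ y ∈ X, 6 * r < A.psi x y + A.psi x (g^[j] y) := by
    intro j hj0 hjp
    have hc : ContinuousOn (fun y => A.psi x y + A.psi x (g^[j] y)) X :=
      (A.psi_cont x).add ((A.psi_cont x).comp (A.it_cont j) (A.it_maps j))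
    obtain ⟨y, hy, hmin⟩ := A.cpt.exists_isMinOn hne hc
    have hpos : 0 < A.psi x y + A.psi x (g^[j] y) := by
      refine lt_of_le_of_ne (add_nonneg (A.psi_nonneg _ _) (A.psi_nonneg _ _)) fun h => hgx ?_
      have h1 : A.psi x y = 0 := by
        have := A.psi_nonneg x y
        have := A.psi_nonneg x (g^[j] y)
        linarith
      have h2 : A.psi x (g^[j] y) = 0 := by
        have := A.psi_nonneg x y
        have := A.psi_nonneg x (g^[j] y)
        linarith
      have hpj : ¬ p ∣ j := fun hd => absurd (Nat.le_of_dvd hj0 hd) (by omega)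
      have hp2j : ¬ p ∣ j + j := by
        intro hd
        rw [← two_mul] at hd
        rcases (Nat.Prime.dvd_mul A.prime).1 hd with h3 | h3
        · exact A.odd ((Nat.prime_dvd_prime_iff_eq A.prime Nat.prime_two).1 h3)
        · exact hpj h3
      -- `g^j x = x` or `g^j x = τ x`
      have key : g^[j] x = x ∨ g^[j] x = τ x := by
        rcases A.psi_zero h1 with h3 | h3
        · rcases A.psi_zero h2 with h4 | h4
          · left
            rw [← h3]
            rw [h3] at h4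
            rw [h3, h4]
          · right
            rw [h3] at h4
            rw [← A.τ_τ _ (A.it_maps j hx), h4]
        · have h5 : y = τ x := by rw [← h3, A.τ_τ y hy]
          rcases A.psi_zero h2 with h4 | h4
          · right
            rw [h5, A.it_comm j x hx] at h4
            rw [← A.τ_τ _ (A.it_maps j hx), h4]
          · left
            rw [h5, A.it_comm j x hx, A.τ_τ _ (A.it_maps j hx)] at h4
            exact h4
      rcases key with h3 | h3
      · exact A.fix_of_it hpj hx h3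
      · refine A.fix_of_it hp2j hx ?_
        rw [Function.iterate_add_apply, h3, A.it_comm j x hx, h3, A.τ_τ x hx]
    refine ⟨(A.psi x y + A.psi x (g^[j] y)) / 7, by positivity, fun z hz => ?_⟩
    have h1 : A.psi x y + A.psi x (g^[j] y) ≤ A.psi x z + A.psi x (g^[j] z) := hmin hz
    linarith
  choose! r hr hr' using hj
  have h2 : 1 < p := A.prime.one_lt
  obtain ⟨b, hb, hbmin⟩ := (Finset.Ioo 0 p).exists_min_image r
    ⟨1, Finset.mem_Ioo.2 ⟨one_pos, h2.trans_le le_rfl⟩⟩
  rw [Finset.mem_Ioo] at hb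
  refine ⟨r b, hr b hb.1 hb.2, fun j hj0 hjp y hy => ?_⟩
  have h3 := hbmin j (Finset.mem_Ioo.2 ⟨hj0, hjp⟩)
  have h4 := hr' j hj0 hjp y hy
  linarith

/-- the set of the points whose `F` is at most `c` -/
def N (c : ℝ) : Set E := {x ∈ X | A.F x ≤ c}

/-- a small piece around a free orbit -/
structure Piece (x : E) (r : ℝ) : Prop where
  pos : 0 < r
  sep : ∀ j, 0 < j → j < p → ∀ y ∈ X, 6 * r < A.psi x y + A.psi x (g^[j] y)

/-- the translates of a small piece -/
def W (x : E) (r : ℝ) : Set E := {y ∈ X | ∃ j < p, A.psi x (g^[j] y) ≤ r}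

/-- a neighbourhood of one translate -/
def D (x : E) (r : ℝ) : Set E := {y | A.psi x y < 2 * r}

theorem isCompact_le {f : E → ℝ} (hf : ContinuousOn f X) (c : ℝ) :
    IsCompact {x ∈ X | f x ≤ c} := by
  have h : IsClosed (X ∩ f ⁻¹' (Iic c)) :=
    hf.preimage_isClosed_of_isClosed A.cpt.isClosed isClosed_Iic
  exact A.cpt.of_isClosed_subset h inter_subset_left

theorem isCompact_N (c : ℝ) : IsCompact (A.N c) := A.isCompact_le A.F_cont c

theorem N_subset (c : ℝ) : A.N c ⊆ X := fun _ h => h.1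

theorem N_g {c : ℝ} {x : E} (hx : x ∈ A.N c) : g x ∈ A.N c :=
  ⟨A.g_maps hx.1, by rw [A.F_g hx.1]; exact hx.2⟩

theorem N_τ {c : ℝ} {x : E} (hx : x ∈ A.N c) : τ x ∈ A.N c :=
  ⟨A.τ_maps hx.1, by rw [A.F_τ hx.1]; exact hx.2⟩

theorem isCompact_W (x : E) (r : ℝ) : IsCompact (A.W x r) := by
  have h : A.W x r = ⋃ j ∈ Finset.range p, {y ∈ X | A.psi x (g^[j] y) ≤ r} := by
    ext y
    simp only [W, mem_ofPred_eq, mem_iUnion, Finset.mem_range, exists_prop]
    constructor
    · rintro ⟨hy, j, hj, h⟩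
      exact ⟨j, hj, hy, h⟩
    · rintro ⟨j, hj, hy, h⟩
      exact ⟨hy, j, hj, h⟩
  rw [h]
  exact (Finset.range p).isCompact_biUnion fun j _ =>
    A.isCompact_le ((A.psi_cont x).comp (A.it_cont j) (A.it_maps j)) r

theorem W_subset (x : E) (r : ℝ) : A.W x r ⊆ X := fun _ h => h.1

theorem W_g {x : E} {r : ℝ} {y : E} (hy : y ∈ A.W x r) : g y ∈ A.W x r := by
  obtain ⟨hyX, j, hj, h⟩ := hy
  refine ⟨A.g_maps hyX, ?_⟩
  rcases Nat.eq_zero_or_pos j with rfl | hj0
  · refine ⟨p - 1, by omega, ?_⟩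
    rw [← Function.iterate_succ_apply, Nat.succ_eq_add_one, Nat.sub_add_cancel (by omega),
      A.g_p y hyX]
    exact h
  · refine ⟨j - 1, by omega, ?_⟩
    rw [← Function.iterate_succ_apply, Nat.succ_eq_add_one, Nat.sub_add_cancel (by omega)]
    exact h

theorem W_τ {x : E} {r : ℝ} {y : E} (hy : y ∈ A.W x r) : τ y ∈ A.W x r := by
  obtain ⟨hyX, j, hj, h⟩ := hy
  refine ⟨A.τ_maps hyX, j, hj, ?_⟩
  rw [A.it_comm j y hyX, A.psi_τ x (A.it_maps j hyX)]
  exact h

theorem D_τ {x : E} {r : ℝ} {y : E} (hy : y ∈ X) : τ y ∈ A.D x r ↔ y ∈ A.D x r := by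
  unfold D
  rw [mem_ofPred_eq, mem_ofPred_eq, A.psi_τ x hy]

/-- near a point of `W`, exactly one translate of the point is in `D` -/
theorem unique_D {x : E} {r : ℝ} (P : A.Piece x r) {w : E} (hw : w ∈ A.W x r) :
    ∃ j₀ < p, ∃ ρ > 0, ∀ y ∈ X, dist y w < ρ → ∀ j < p, (g^[j] y ∈ A.D x r ↔ j = j₀) := by
  obtain ⟨hwX, j₀, hj₀, hj⟩ := hw
  refine ⟨j₀, hj₀, ?_⟩
  have hr := P.pos
  have hfar : ∀ j < p, j ≠ j₀ → 5 * r < A.psi x (g^[j] w) := by
    intro j hjp hne
    rcases lt_or_gt_of_ne hne with h | h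
    · have h1 := P.sep (j₀ - j) (by omega) (by omega) (g^[j] w) (A.it_maps j hwX)
      rw [← Function.iterate_add_apply, Nat.sub_add_cancel h.le] at h1
      linarith
    · have h1 := P.sep (j - j₀) (by omega) (by omega) (g^[j₀] w) (A.it_maps j₀ hwX)
      rw [← Function.iterate_add_apply, Nat.sub_add_cancel h.le] at h1
      linarith
  have hev : ∀ᶠ y in 𝓝[X] w, ∀ j ∈ Finset.range p, (g^[j] y ∈ A.D x r ↔ j = j₀) := by
    rw [Finset.eventually_all]
    intro j hjr
    have hjp := Finset.mem_range.1 hjr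
    have hc : ContinuousWithinAt (fun y => A.psi x (g^[j] y)) X w :=
      ((A.psi_cont x).comp (A.it_cont j) (A.it_maps j)) w hwX
    by_cases hne : j = j₀
    · subst hne
      have h1 : ∀ᶠ y in 𝓝[X] w, A.psi x (g^[j] y) < 2 * r :=
        hc.eventually (gt_mem_nhds (by linarith : A.psi x (g^[j] w) < 2 * r))
      filter_upwards [h1] with y hy
      exact ⟨fun _ => rfl, fun _ => hy⟩
    · have h1 : ∀ᶠ y in 𝓝[X] w, 2 * r < A.psi x (g^[j] y) :=
        hc.eventually (lt_mem_nhds (by linarith [hfar j hjp hne] : 2 * r < A.psi x (g^[j] w)))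
      filter_upwards [h1] with y hy
      refine ⟨fun h => ?_, fun h => absurd h hne⟩
      have h2 : A.psi x (g^[j] y) < 2 * r := h
      linarith
  obtain ⟨ρ, hρ, h⟩ := Metric.mem_nhdsWithin_iff.1 hev
  exact ⟨ρ, hρ, fun y hy hyw j hjp => h ⟨hyw, hy⟩ j (Finset.mem_range.2 hjp)⟩

theorem triv_D {x : E} {r : ℝ} (P : A.Piece x r) {w : E} (hw : w ∈ A.W x r) :
    Triv X (A.D x r) w := by
  obtain ⟨j₀, hj₀, ρ, hρ, h⟩ := A.unique_D P hw
  refine ⟨ρ, hρ, ?_⟩
  by_cases hj : j₀ = 0
  · left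
    intro y hy hyw
    exact (h y hy hyw 0 A.prime.pos).2 hj.symm
  · right
    intro y hy hyw hD
    exact hj ((h y hy hyw 0 A.prime.pos).1 hD).symm

/-- finitely many pieces cover the complement of a neighbourhood of the fixed set -/
theorem exists_cover {c : ℝ} (hc : 0 < c) : ∃ L : List (E × ℝ),
    (∀ P ∈ L, A.Piece P.1 P.2) ∧ ∀ y ∈ X, y ∉ A.N c → ∃ P ∈ L, y ∈ A.W P.1 P.2 := by
  classical
  have hK : IsCompact {x ∈ X | -A.F x ≤ -c} := A.isCompact_le A.F_cont.neg (-c)
  have hex : ∀ x ∈ {x ∈ X | -A.F x ≤ -c}, ∃ r > 0, A.Piece x r := by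
    intro x hx
    have hgx : g x ≠ x := by
      intro h
      have h1 := (A.F_eq_zero hx.1).2 h
      have h2 := hx.2
      rw [h1] at h2
      linarith
    obtain ⟨r, hr, h⟩ := A.exists_sep hx.1 hgx
    exact ⟨r, hr, hr, h⟩
  choose! r hr hP using hex
  obtain ⟨t, ht, htc⟩ := hK.elim_nhds_subcover (fun x => Metric.ball x (r x))
    (fun x hx => Metric.ball_mem_nhds x (hr x hx))
  refine ⟨t.toList.map fun x => (x, r x), ?_, ?_⟩
  · intro P hPm
    obtain ⟨x, hx, rfl⟩ := List.mem_map.1 hPm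
    exact hP x (ht x (Finset.mem_toList.1 hx))
  · intro y hy hyN
    have hy' : y ∈ {x ∈ X | -A.F x ≤ -c} := by
      refine ⟨hy, ?_⟩
      by_contra hcon
      exact hyN ⟨hy, by linarith⟩
    obtain ⟨x, hx⟩ := mem_iUnion.1 (htc hy')
    obtain ⟨hxt, hyx⟩ := mem_iUnion.1 hx
    refine ⟨(x, r x), List.mem_map.2 ⟨x, Finset.mem_toList.2 hxt, rfl⟩, hy, 0, A.prime.pos, ?_⟩
    refine (min_le_left _ _).trans ?_
    exact (Metric.mem_ball.1 hyx).le

end Act

end top

section coch

variable {E : Type} [MetricSpace E] {k : Type} [Field k] {X : Set E} {τ g : E → E} {p : ℕ}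
  (A : Act X τ g p) {χ : Unit → k}

include A

/-- multiplication by the indicator preserves the cochains -/
theorem cut_mem_Zn {x : E} {r : ℝ} {B : Set E} {n : ℕ} {f : (Fin (n + 1) → E) → k}
    (hf : f ∈ Zn (fun _ : Unit => τ) χ X B n) :
    cut k (A.D x r) n f ∈ Zn (fun _ : Unit => τ) χ X B n :=
  ⟨cut_eqv hf.1 fun _ y hy => A.D_τ hy, VanN.cut hf.2⟩

theorem cut_comm_mem {x : E} {r : ℝ} (P : A.Piece x r) {B : Set E} (hB : IsCompact B) {n : ℕ}
    {f : (Fin (n + 1) → E) → k} (hf : f ∈ Zn (fun _ : Unit => τ) χ X B n) :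
    P265.AS.d (cut k (A.D x r) n f) - cut k (A.D x r) (n + 1) (P265.AS.d f) ∈
      Zn (fun _ : Unit => τ) χ X (B ∪ A.W x r) (n + 1) := by
  have h1 : Eqv (fun _ : Unit => τ) χ X (P265.AS.d (cut k (A.D x r) n f)) :=
    (cut_eqv hf.1 fun _ y hy => A.D_τ hy).d
  have h2 : Eqv (fun _ : Unit => τ) χ X (cut k (A.D x r) (n + 1) (P265.AS.d f)) :=
    cut_eqv hf.1.d fun _ y hy => A.D_τ hy
  refine ⟨(eqvS _ χ X _).sub_mem h1 h2, ?_⟩
  rw [vanN_iff (hB.union (A.isCompact_W x r))]
  rintro a (ha | ha)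
  · have h3 := (vanN_iff hB).1 hf.2 a ha
    exact h3.cut.d.sub h3.d.cut
  · exact vanAt_comm f (A.triv_D P ha)

theorem sum_cut_mem {x : E} {r : ℝ} (P : A.Piece x r) {B : Set E} (hB : IsCompact B) {n : ℕ}
    {f : (Fin (n + 1) → E) → k} (hf : f ∈ Zn (fun _ : Unit => τ) χ X B n) :
    ∑ j ∈ Finset.range p, cut k (g^[j] ⁻¹' A.D x r) n f - f ∈
      Zn (fun _ : Unit => τ) χ X (B ∪ A.W x r) n := by
  have h1 : ∀ j, Eqv (fun _ : Unit => τ) χ X (cut k (g^[j] ⁻¹' A.D x r) n f) := fun j =>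
    cut_eqv hf.1 fun _ y hy => by
      rw [mem_preimage, mem_preimage, A.it_comm j y hy]
      exact A.D_τ (A.it_maps j hy)
  refine ⟨(eqvS _ χ X _).sub_mem ((eqvS _ χ X _).sum_mem fun j _ => h1 j) hf.1, ?_⟩
  rw [vanN_iff (hB.union (A.isCompact_W x r))]
  rintro a (ha | ha)
  · have h3 := (vanN_iff hB).1 hf.2 a ha
    refine VanAt.sub ?_ h3
    have h4 : ∀ s : Finset ℕ, VanAt X a (∑ j ∈ s, cut k (g^[j] ⁻¹' A.D x r) n f) := by
      classical
      intro s
      induction s using Finset.induction_on with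
      | empty => rw [Finset.sum_empty]; exact ⟨1, one_pos, fun _ _ => rfl⟩
      | insert j s hj ih => rw [Finset.sum_insert hj]; exact h3.cut.add ih
    exact h4 _
  · obtain ⟨j₀, hj₀, ρ, hρ, h⟩ := A.unique_D P ha
    refine ⟨ρ, hρ, fun y hy => ?_⟩
    rw [Pi.sub_apply, Finset.sum_apply, sub_eq_zero]
    rw [Finset.sum_eq_single_of_mem j₀ (Finset.mem_range.2 hj₀)]
    · exact cut_of_mem ((h _ (hy 0).1 (hy 0).2 j₀ hj₀).2 rfl)
    · intro j hj hne
      refine cut_of_notMem fun hD => hne ?_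
      exact (h _ (hy 0).1 (hy 0).2 j (Finset.mem_range.1 hj)).1 hD

/-- the fixed set -/
def Fix (X : Set E) (g : E → E) : Set E := {x ∈ X | g x = x}

theorem isCompact_Fix : IsCompact (Fix X g) := by
  have h := A.isCompact_le (cdist A.g_cont continuousOn_id) 0
  convert h using 1
  ext x
  simp only [Fix, mem_ofPred_eq]
  refine and_congr_right fun _ => ?_
  constructor
  · intro h; rw [h]; simp
  · intro h
    exact dist_le_zero.1 h

theorem Fix_subset_N {c : ℝ} (hc : 0 ≤ c) : Fix X g ⊆ A.N c := fun x hx =>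
  ⟨hx.1, by rw [(A.F_eq_zero hx.1).2 hx.2]; exact hc⟩

theorem N_mono {c c' : ℝ} (h : c ≤ c') : A.N c ⊆ A.N c' := fun _ hx => ⟨hx.1, hx.2.trans h⟩

/-- germs near the fixed set vanish near an invariant neighbourhood -/
theorem exists_N_one {n : ℕ} {f : (Fin (n + 1) → E) → k}
    (hf : f ∈ Zn (fun _ : Unit => τ) χ X (Fix X g) n) :
    ∃ c > 0, f ∈ Zn (fun _ : Unit => τ) χ X (A.N c) n := by
  obtain ⟨hfe, ε, hε, h⟩ := hf
  obtain ⟨c, hc, hcU⟩ := A.exists_nbhd (U := ⋃ a ∈ Fix X g, Metric.ball a (ε / 2))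
    (isOpen_biUnion fun _ _ => Metric.isOpen_ball)
    (fun x hx hgx => mem_iUnion₂.2 ⟨x, ⟨hx, hgx⟩, Metric.mem_ball_self (by positivity)⟩)
  refine ⟨c, hc, hfe, ε / 2, by positivity, fun x hx => h x ⟨hx.1.mono le_rfl (by linarith),
    fun i => ?_⟩⟩
  obtain ⟨y, hy, hxy⟩ := hx.2 i
  obtain ⟨a, ha, hya⟩ := mem_iUnion₂.1 (hcU y hy.1 hy.2)
  refine ⟨a, ha, ?_⟩
  have h1 := dist_triangle (x i) y a
  have h2 := Metric.mem_ball.1 hya
  linarith

theorem exists_N {ι : Type*} (s : Finset ι) (n : ι → ℕ) (f : ∀ i, (Fin (n i + 1) → E) → k)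
    (hf : ∀ i ∈ s, f i ∈ Zn (fun _ : Unit => τ) χ X (Fix X g) (n i)) :
    ∃ c > 0, ∀ i ∈ s, f i ∈ Zn (fun _ : Unit => τ) χ X (A.N c) (n i) := by
  classical
  induction s using Finset.induction_on with
  | empty => exact ⟨1, one_pos, fun i hi => absurd hi (Finset.notMem_empty i)⟩
  | insert i s hi ih =>
    obtain ⟨c, hc, h⟩ := ih fun j hj => hf j (Finset.mem_insert_of_mem hj)
    obtain ⟨c', hc', h'⟩ := exists_N_one A (hf i (Finset.mem_insert_self i s))
    refine ⟨min c c', lt_min hc hc', fun j hj => ?_⟩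
    rcases Finset.mem_insert.1 hj with rfl | hj
    · exact Zn_anti le_rfl (N_mono A (min_le_right _ _)) _ h'
    · exact Zn_anti le_rfl (N_mono A (min_le_left _ _)) _ (h j hj)

/-- pull back by `g` -/
theorem pb_mem_Zn {B : Set E} (hB : IsCompact B) (hBX : B ⊆ X) (hg : MapsTo g B B) {n : ℕ}
    {f : (Fin (n + 1) → E) → k} (hf : f ∈ Zn (fun _ : Unit => τ) χ X B n) :
    P265.AS.pb g f ∈ Zn (fun _ : Unit => τ) χ X B n := by
  constructor
  · intro i x hx
    have h1 := hf.1 i (g ∘ x) fun j => A.g_maps (hx j)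
    have h2 : g ∘ (τ ∘ x) = τ ∘ (g ∘ x) := by
      funext j
      exact A.comm _ (hx j)
    rw [P265.AS.pb_apply, P265.AS.pb_apply, h2]
    exact h1
  · rw [vanN_iff hB]
    intro a ha
    obtain ⟨r, hr, h⟩ := (vanN_iff hB).1 hf.2 (g a) (hg ha)
    have hc := A.g_cont a (hBX ha)
    obtain ⟨s, hs, hs'⟩ := Metric.continuousWithinAt_iff.1 hc r hr
    exact ⟨s, hs, fun x hx => h _ fun i => ⟨A.g_maps (hx i).1, hs' (hx i).1 (hx i).2⟩⟩

end coch

end Vale.Agent.P216.Loc
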