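import Vale.Agent.P216.AS.Defs
import Vale.Agent.P216.AS.TotLevel
import Vale.Agent.P216.H609.TotInd

/-!
The action of a map of finite order on Alexander-Spanier cochains, as a `GCx`.
-/

open Set Matrix Finset

namespace Vale.Agent.P216.AS

open Vale.Agent.P216.H609

variable {E : Type} {k : Type} [Field k]

/-- pull back as an endomorphism -/
def pbE (k : Type) [Field k] (g : E → E) (n : ℕ) : Module.End k ((ASK E k).K n) :=
  P265.AS.pb g

theorem pbE_apply (g : E → E) {n : ℕ} (f : (Fin (n + 1) → E) → k) (x : Fin (n + 1) → E) :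
    (pbE k g n f : (Fin (n + 1) → E) → k) x = f (g ∘ x) := rfl

theorem pbE_pow (g : E → E) (n j : ℕ) : pbE k g n ^ j = pbE k g^[j] n := by
  induction j with
  | zero => rfl
  | succ j ih =>
    rw [pow_succ, ih]
    apply LinearMap.ext
    intro f
    funext x
    change f (g ∘ (g^[j] ∘ x)) = f (g^[j + 1] ∘ x)
    rw [Function.iterate_succ', Function.comp_assoc]

theorem pbE_pow_p {g : E → E} {p : ℕ} (hg : ∀ x, g^[p] x = x) (n : ℕ) : pbE k g n ^ p = 1 := by
  rw [pbE_pow]
  apply LinearMap.ext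
  intro f
  funext x
  change f (g^[p] ∘ x) = f x
  congr 1
  funext i
  exact hg _

/-- the `ℤ/p`-action on cochains given by a map `g` with `g^[p] = id` -/
def asG (k : Type) [Field k] (g : E → E) (p : ℕ) (hg : ∀ x, g^[p] x = x) : GCx (ASK E k) where
  g n := pbE k g n
  nm n := nm p (pbE k g n)
  d_g n x := P265.AS.d_pb g x
  d_nm n x := by
    have h : ∀ j (y : (ASK E k).K n), (ASK E k).d n ((pbE k g n ^ j) y) =
        (pbE k g (n + 1) ^ j) ((ASK E k).d n y) := by
      intro j y
      rw [pbE_pow, pbE_pow]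
      exact P265.AS.d_pb _ y
    unfold nm
    rw [LinearMap.sum_apply, LinearMap.sum_apply, map_sum]
    exact Finset.sum_congr rfl fun j _ => h j x
  g_nm n x := LinearMap.congr_fun (mul_nm (pbE_pow_p hg n)) x
  nm_g n x := LinearMap.congr_fun (nm_mul (pbE_pow_p hg n)) x

theorem asG_g (g : E → E) (p : ℕ) (hg : ∀ x, g^[p] x = x) (n : ℕ) :
    (asG k g p hg).g n = pbE k g n := rfl

theorem asG_nm (g : E → E) (p : ℕ) (hg : ∀ x, g^[p] x = x) (n : ℕ) :
    (asG k g p hg).nm n = nm p ((asG k g p hg).g n : Module.End k ((ASK E k).K n)) := rfl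

/-- stability under `g` gives stability under the norm -/
theorem asG_stable {g : E → E} {p : ℕ} {hg : ∀ x, g^[p] x = x} {S : Sub (ASK E k)}
    (h : ∀ n, ∀ f ∈ S n, pbE k g n f ∈ S n) : (asG k g p hg).Stable S where
  g_mem n x hx := h n x hx
  nm_mem n x hx := by
    rw [asG_nm]
    unfold nm
    rw [LinearMap.sum_apply]
    refine Submodule.sum_mem _ fun j hj => ?_
    clear hj
    induction j with
    | zero => simpa using hx
    | succ j ih =>
      rw [pow_succ', Module.End.mul_apply]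
      exact h n _ ih

/-- equivariant cochains are preserved by a commuting map -/
theorem pbE_eqv {I : Type} {a : I → E → E} {χ : I → k} {X : Set E} {g : E → E}
    (hX : MapsTo g X X) (hc : ∀ i, ∀ x ∈ X, g (a i x) = a i (g x)) {n : ℕ}
    {f : (Fin (n + 1) → E) → k} (hf : Eqv a χ X f) :
    Eqv a χ X (pbE k g n f : (Fin (n + 1) → E) → k) := by
  intro i x hx
  have h1 := hf i (g ∘ x) fun j => hX (hx j)
  have h2 : g ∘ (a i ∘ x) = a i ∘ (g ∘ x) := by
    funext j
    exact hc i _ (hx j)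
  rw [pbE_apply, pbE_apply, h2]
  exact h1

theorem stable_Cc {I : Type} {a : I → E → E} {χ : I → k} {X : Set E} {g : E → E} {p : ℕ}
    {hg : ∀ x, g^[p] x = x} (hX : MapsTo g X X) (hc : ∀ i, ∀ x ∈ X, g (a i x) = a i (g x)) :
    (asG k g p hg).Stable (Cc a χ X) :=
  asG_stable fun _ _ hf => pbE_eqv hX hc hf

section metric

variable [PseudoMetricSpace E]

/-- cochains vanishing on small tuples of a compact set are preserved by a map continuous on it -/
theorem pbE_van {A : Set E} (hA : IsCompact A) {g : E → E} (hc : ContinuousOn g A)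
    (hgA : MapsTo g A A) {n : ℕ} {f : (Fin (n + 1) → E) → k} (hf : Van A f) :
    Van A (pbE k g n f : (Fin (n + 1) → E) → k) := by
  obtain ⟨ε, hε, h⟩ := hf
  have hu := hA.uniformContinuousOn_of_continuous hc
  rw [Metric.uniformContinuousOn_iff] at hu
  obtain ⟨δ, hδ, hu⟩ := hu ε hε
  refine ⟨δ, hδ, fun x hx => h _ ⟨fun i => hgA (hx.1 i), fun i j => ?_⟩⟩
  exact hu _ (hx.1 i) _ (hx.1 j) (hx.2 i j)

theorem stable_Zr {I : Type} {a : I → E → E} {χ : I → k} {X A : Set E} {g : E → E} {p : ℕ}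
    {hg : ∀ x, g^[p] x = x} (hX : MapsTo g X X) (hc : ∀ i, ∀ x ∈ X, g (a i x) = a i (g x))
    (hA : IsCompact A) (hgc : ContinuousOn g A) (hgA : MapsTo g A A) :
    (asG k g p hg).Stable (Zr a χ X A) :=
  asG_stable fun _ _ hf => ⟨pbE_eqv hX hc hf.1, pbE_van hA hgc hgA hf.2⟩

end metric

end Vale.Agent.P216.AS
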