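import Vale.Agent.P216.Bor.LocTop
import Vale.Agent.P216.Bor.AsG
import Vale.Agent.P216.AS.TotMap

/-!
Localisation (block BOR2/LOC of P216): the equivariant cohomology of `(X, X^G)` is elementwise
torsion for the periodicity operator.
-/

open Set Matrix Filter Topology

namespace Vale.Agent.P216.Loc

open Vale.Agent.P216.AS Vale.Agent.P216.H609

variable {E : Type} [MetricSpace E] {k : Type} [Field k] {X : Set E} {τ g : E → E} {p : ℕ}
  (A : Act X τ g p) {χ : Unit → k}

include A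

theorem stable_Zn {hg : ∀ x, g^[p] x = x} {B : Set E} (hB : IsCompact B) (hBX : B ⊆ X)
    (hgB : MapsTo g B B) : (asG k g p hg).Stable (Zn (fun _ : Unit => τ) χ X B) :=
  asG_stable fun _ _ hf => pb_mem_Zn A hB hBX hgB hf

omit A in
/-- conjugates of an indicator -/
theorem cj_cut (hg : ∀ x, g^[p] x = x) (D : Set E) (n j : ℕ) (hj : j ≤ p)
    (f : (Fin (n + 1) → E) → k) :
    cj p ((asG k g p hg).g n : Module.End k ((ASK E k).K n)) (cut k D n) j f =
      cut k (g^[j] ⁻¹' D) n f := by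
  have h1 : ∀ i, ((asG k g p hg).g n : Module.End k ((ASK E k).K n)) ^ i = pbE k g^[i] n :=
    fun i => pbE_pow g n i
  unfold cj
  rw [h1, h1]
  funext x
  change (cut k D n (fun y => f (g^[p - j] ∘ y))) (g^[j] ∘ x) = _
  by_cases h : x 0 ∈ g^[j] ⁻¹' D
  · rw [cut_of_mem h, cut_of_mem (show (g^[j] ∘ x) 0 ∈ D from h)]
    congr 1
    funext i
    change g^[p - j] (g^[j] (x i)) = x i
    rw [← Function.iterate_add_apply, Nat.sub_add_cancel hj, hg]
  · rw [cut_of_notMem h, cut_of_notMem (show (g^[j] ∘ x) 0 ∉ D from h)]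

/-- one piece -/
theorem uNil_piece {hg : ∀ x, g^[p] x = x} {x : E} {r : ℝ} (P : A.Piece x r) {B : Set E}
    (hB : IsCompact B) (hS : (asG k g p hg).Stable (Zn (fun _ : Unit => τ) χ X B))
    (hT : (asG k g p hg).Stable (Zn (fun _ : Unit => τ) χ X (B ∪ A.W x r))) :
    UNil (asG k g p hg) (Zn (fun _ : Unit => τ) χ X B) (Zn (fun _ : Unit => τ) χ X (B ∪ A.W x r))
      hS hT 1 := by
  refine uNil_one (p := p) (e := fun n => cut k (A.D x r) n) hS hT (fun n => pbE_pow_p hg n)
    (fun n => rfl) ⟨fun hf => cut_mem_Zn A hf, fun hf => cut_mem_Zn A hf,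
      fun hf => cut_comm_mem A P hB hf⟩ ?_
  intro n f hf
  have h := sum_cut_mem A P hB hf
  have h1 : ∑ j ∈ Finset.range p, cj p ((asG k g p hg).g n : Module.End k ((ASK E k).K n))
      (cut k (A.D x r) n) j f = ∑ j ∈ Finset.range p, cut k (g^[j] ⁻¹' A.D x r) n f :=
    Finset.sum_congr rfl fun j hj => cj_cut hg _ n j (Finset.mem_range.1 hj).le f
  rw [h1]
  exact h

/-- the union of the neighbourhood and of the first pieces -/
def Bs (c : ℝ) : List (E × ℝ) → Set E
  | [] => A.N c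
  | P :: L => Bs c L ∪ A.W P.1 P.2

theorem isCompact_Bs (c : ℝ) (L : List (E × ℝ)) : IsCompact (Bs A c L) := by
  induction L with
  | nil => exact A.isCompact_N c
  | cons P L ih => exact ih.union (A.isCompact_W _ _)

theorem Bs_subset (c : ℝ) (L : List (E × ℝ)) : Bs A c L ⊆ X := by
  induction L with
  | nil => exact A.N_subset c
  | cons P L ih => exact union_subset ih (A.W_subset _ _)

theorem Bs_g (c : ℝ) (L : List (E × ℝ)) : MapsTo g (Bs A c L) (Bs A c L) := by
  induction L with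
  | nil => exact fun _ hx => A.N_g hx
  | cons P L ih =>
    rintro x (hx | hx)
    · exact Or.inl (ih hx)
    · exact Or.inr (A.W_g hx)

theorem mem_Bs {c : ℝ} {L : List (E × ℝ)} {x : E} :
    x ∈ Bs A c L ↔ x ∈ A.N c ∨ ∃ P ∈ L, x ∈ A.W P.1 P.2 := by
  induction L with
  | nil => simp [Bs]
  | cons P L ih =>
    simp only [Bs, mem_union, ih, List.mem_cons, exists_eq_or_imp]
    constructor
    · rintro ((h | h) | h)
      · exact Or.inl h
      · exact Or.inr (Or.inr h)
      · exact Or.inr (Or.inl h)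
    · rintro (h | h | h)
      · exact Or.inl (Or.inl h)
      · exact Or.inr h
      · exact Or.inl (Or.inr h)

theorem uNil_Bs {hg : ∀ x, g^[p] x = x} (c : ℝ) (L : List (E × ℝ))
    (hL : ∀ P ∈ L, A.Piece P.1 P.2) :
    UNil (asG k g p hg) (Zn (fun _ : Unit => τ) χ X (A.N c))
      (Zn (fun _ : Unit => τ) χ X (Bs A c L))
      (stable_Zn A (A.isCompact_N c) (A.N_subset c) fun _ hx => A.N_g hx)
      (stable_Zn A (isCompact_Bs A c L) (Bs_subset A c L) (Bs_g A c L)) L.length := by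
  induction L with
  | nil => exact uNil_zero _
  | cons P L ih =>
    refine UNil.trans (Zn_anti le_rfl ?_) (Zn_anti le_rfl subset_union_left)
      (ih fun Q hQ => hL Q (List.mem_cons_of_mem _ hQ))
      (uNil_piece A (hL P List.mem_cons_self) (isCompact_Bs A c L) _ _)
    intro x hx
    exact (mem_Bs A).2 (Or.inl hx)

/-- `u` is nilpotent on the equivariant cohomology of `X` relative to an invariant neighbourhood
of the fixed set -/
theorem uNil_N {hg : ∀ x, g^[p] x = x} {c : ℝ} (hc : 0 < c)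
    (hS : (asG k g p hg).Stable (Zn (fun _ : Unit => τ) χ X (A.N c)))
    (hT : (asG k g p hg).Stable (Zn (fun _ : Unit => τ) χ X X)) :
    ∃ m, UNil (asG k g p hg) (Zn (fun _ : Unit => τ) χ X (A.N c)) (Zn (fun _ : Unit => τ) χ X X)
      hS hT m := by
  obtain ⟨L, hL, hcov⟩ := A.exists_cover hc
  refine ⟨L.length, ?_⟩
  have h := uNil_Bs (k := k) (χ := χ) (hg := hg) A c L hL
  have hX : Bs A c L = X := by
    refine (Bs_subset A c L).antisymm fun y hy => (mem_Bs A).2 ?_
    by_cases hyN : y ∈ A.N c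
    · exact Or.inl hyN
    · exact Or.inr (hcov y hy hyN)
  have key : ∀ Y : Set E, Y = X → ∀ hT' : (asG k g p hg).Stable (Zn (fun _ : Unit => τ) χ X Y),
      UNil (asG k g p hg) (Zn (fun _ : Unit => τ) χ X (A.N c)) (Zn (fun _ : Unit => τ) χ X Y)
        hS hT' L.length →
      UNil (asG k g p hg) (Zn (fun _ : Unit => τ) χ X (A.N c)) (Zn (fun _ : Unit => τ) χ X X)
        hS hT L.length := by
    intro Y hY hT' h'
    subst hY
    exact h'
  exact key _ hX _ h

omit A in
/-- elementwise torsion -/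
def UTor {C : Amb k} (G : GCx C) (S T : Sub C) (hS : G.Stable S) (hT : G.Stable T) : Prop :=
  ∀ n, ∀ c ∈ Zc (G.TotS S hS) (G.TotS T hT) n, ∃ m, (c : G.Tot.K (n + 2 * m)) ∈
    Bc (G.TotS S hS) (G.TotS T hT) (n + 2 * m)

/-- **Localisation**, germ form. -/
theorem uTor_Zn {hg : ∀ x, g^[p] x = x}
    (hS : (asG k g p hg).Stable (Zn (fun _ : Unit => τ) χ X (Fix X g)))
    (hT : (asG k g p hg).Stable (Zn (fun _ : Unit => τ) χ X X)) :
    UTor (asG k g p hg) (Zn (fun _ : Unit => τ) χ X (Fix X g)) (Zn (fun _ : Unit => τ) χ X X)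
      hS hT := by
  intro n c hc
  obtain ⟨h1, h2⟩ := mem_Zc.1 hc
  obtain ⟨ε, hε, hN⟩ := exists_N (χ := χ) A (Finset.range (n + 1)) (fun q => q) (fun q => c q)
    (fun q hq => h1.1 q (by rw [Finset.mem_range] at hq; omega))
  have hSN := stable_Zn (k := k) (χ := χ) (hg := hg) A (A.isCompact_N ε) (A.N_subset ε)
    fun _ hx => A.N_g hx
  obtain ⟨m, hm⟩ := uNil_N (k := k) (χ := χ) (hg := hg) A hε hSN hT
  have hc' : c ∈ Zc ((asG k g p hg).TotS (Zn (fun _ : Unit => τ) χ X (A.N ε)) hSN)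
      ((asG k g p hg).TotS (Zn (fun _ : Unit => τ) χ X X) hT) n :=
    mem_Zc.2 ⟨⟨fun q hq => hN q (Finset.mem_range.2 (by omega)), h1.2⟩, h2⟩
  refine ⟨m, ?_⟩
  refine Bc_mono (S := (asG k g p hg).TotS (Zn (fun _ : Unit => τ) χ X (A.N ε)) hSN)
    (T := (asG k g p hg).TotS (Zn (fun _ : Unit => τ) χ X X) hT) ?_ le_rfl _ (hm n c hc')
  exact fun _ _ hx => ⟨fun q hq => Zn_anti le_rfl (Fix_subset_N A hε.le) _ (hx.1 q hq), hx.2⟩

end Vale.Agent.P216.Loc
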